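import Mathlib

/-!
# Bin packing and the configuration LP
-/

namespace Vale.Agent.P302X

open Finset

variable {ι : Type*} [Fintype ι]

/-- The items of `s` can be put into `m` bins of capacity one. -/
def Packs (a : ι → ℝ) (s : Finset ι) (m : ℕ) : Prop :=
  ∃ f : ι → Fin m, ∀ b, ∑ i ∈ s with f i = b, a i ≤ 1

/-- `OPT`: the least number of bins for all the items. -/
noncomputable def OPT (a : ι → ℝ) : ℕ := sInf {m | Packs a univ m}

/-- `c` is a configuration: it uses only sizes of the instance and has total size at most one. -/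
def IsConfig (a : ι → ℝ) (c : ℝ →₀ ℕ) : Prop :=
  (∀ σ ∈ c.support, ∃ i, a i = σ) ∧ ∑ σ ∈ c.support, σ * (c σ : ℝ) ≤ 1

/-- `v` is the value of a feasible solution `z` of the Gilmore-Gomory configuration LP. -/
def LPFeasible (a : ι → ℝ) (v : ℝ) : Prop :=
  ∃ (J : Finset (ℝ →₀ ℕ)) (z : (ℝ →₀ ℕ) → ℝ), (∀ c ∈ J, IsConfig a c ∧ 0 ≤ z c) ∧
    (∀ i, (Nat.card {j // a j = a i} : ℝ) ≤ ∑ c ∈ J, (c (a i) : ℝ) * z c) ∧ ∑ c ∈ J, z c = v

/-- `LP`: the value of the configuration LP. -/
noncomputable def LP (a : ι → ℝ) : ℝ := sInf {v | LPFeasible a v}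

theorem weight_le (a : ι → ℝ) (w : ℝ → ℝ) (hw : ∀ x, 0 ≤ w x) (W : ℝ)
    (hW : ∀ c, IsConfig a c → ∑ σ ∈ c.support, w σ * (c σ : ℝ) ≤ W) (v : ℝ)
    (hv : LPFeasible a v) : ∑ i, w (a i) ≤ W * v := by
  classical
  obtain ⟨J, z, hJ, hcov, hsum⟩ := hv
  rw [sum_comp w a]
  have h1 : ∀ σ ∈ univ.image a, (#{i | a i = σ} • w σ : ℝ)
      ≤ ∑ c ∈ J, w σ * (c σ : ℝ) * z c := by
    intro σ hσ
    obtain ⟨i, _, rfl⟩ := mem_image.1 hσ
    have h2 := hcov i
    have h3 : Nat.card {j // a j = a i} = #{j | a j = a i} := by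
      rw [Nat.card_eq_fintype_card, Fintype.card_subtype]
    rw [h3] at h2
    calc (#{j | a j = a i} • w (a i) : ℝ) = w (a i) * (#{j | a j = a i} : ℝ) := by
          rw [nsmul_eq_mul, mul_comm]
      _ ≤ w (a i) * ∑ c ∈ J, (c (a i) : ℝ) * z c := mul_le_mul_of_nonneg_left h2 (hw _)
      _ = ∑ c ∈ J, w (a i) * (c (a i) : ℝ) * z c := by
          rw [mul_sum]
          exact sum_congr rfl fun c _ => by ring
  refine (sum_le_sum h1).trans ?_
  rw [sum_comm]
  rw [← hsum, mul_sum]
  refine sum_le_sum fun c hc => ?_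
  rw [← sum_mul]
  refine mul_le_mul_of_nonneg_right ?_ (hJ c hc).2
  refine le_trans ?_ (hW c (hJ c hc).1)
  have h4 : ∑ σ ∈ univ.image a, w σ * (c σ : ℝ) = ∑ σ ∈ c.support, w σ * (c σ : ℝ) := by
    symm
    refine sum_subset ?_ ?_
    · intro σ hσ
      obtain ⟨i, hi⟩ := (hJ c hc).1.1 σ hσ
      exact mem_image.2 ⟨i, mem_univ _, hi⟩
    · intro σ _ hσ
      rw [Finsupp.notMem_support_iff.1 hσ]
      simp
  exact h4.le

theorem lp_nonempty (a : ι → ℝ) (ha : ∀ i, a i ≤ 1) : ∃ v, LPFeasible a v := by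
  classical
  refine ⟨_, univ.image (fun i => Finsupp.single (a i) 1), fun _ => (Fintype.card ι : ℝ), ?_, ?_,
    rfl⟩
  · intro c hc
    obtain ⟨i, _, rfl⟩ := mem_image.1 hc
    refine ⟨⟨fun σ hσ => ⟨i, ?_⟩, ?_⟩, Nat.cast_nonneg _⟩
    · have := Finsupp.support_single_subset hσ
      exact (mem_singleton.1 this).symm
    · rw [Finsupp.support_single_ne_zero _ one_ne_zero, sum_singleton]
      simpa using ha i
  · intro i
    have h1 : (Finsupp.single (a i) 1 : ℝ →₀ ℕ) ∈
        univ.image (fun i => (Finsupp.single (a i) 1 : ℝ →₀ ℕ)) :=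
      mem_image.2 ⟨i, mem_univ _, rfl⟩
    have h2 : ((Finsupp.single (a i) 1 : ℝ →₀ ℕ) (a i) : ℝ) * (Fintype.card ι : ℝ)
        ≤ ∑ c ∈ univ.image (fun i => (Finsupp.single (a i) 1 : ℝ →₀ ℕ)),
          (c (a i) : ℝ) * (Fintype.card ι : ℝ) :=
      single_le_sum (f := fun c : ℝ →₀ ℕ => (c (a i) : ℝ) * (Fintype.card ι : ℝ))
        (fun c _ => by positivity) h1
    refine le_trans ?_ h2
    rw [Finsupp.single_eq_same]
    simp only [Nat.cast_one, one_mul]
    rw [Nat.card_eq_fintype_card]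
    exact_mod_cast Fintype.card_subtype_le _

/-- Weight bounds for the value of the LP. -/
theorem weight_LP (a : ι → ℝ) (ha : ∀ i, a i ≤ 1) (w : ℝ → ℝ) (hw : ∀ x, 0 ≤ w x) (W : ℝ)
    (hW0 : 0 < W) (hW : ∀ c, IsConfig a c → ∑ σ ∈ c.support, w σ * (c σ : ℝ) ≤ W) :
    ∑ i, w (a i) ≤ W * LP a := by
  have h1 : (∑ i, w (a i)) / W ≤ LP a := by
    refine le_csInf (lp_nonempty a ha) fun v hv => ?_
    rw [div_le_iff₀ hW0]
    have := weight_le a w hw W hW v hv
    linarith
  rw [div_le_iff₀ hW0] at h1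
  linarith

theorem packs_union [DecidableEq ι] (a : ι → ℝ) {s t : Finset ι} {m k : ℕ} (h1 : Packs a s m)
    (h2 : Packs a t k) (hd : Disjoint s t) : Packs a (s ∪ t) (m + k) := by
  classical
  obtain ⟨f, hf⟩ := h1
  obtain ⟨g, hg⟩ := h2
  refine ⟨fun i => if i ∈ s then Fin.castAdd k (f i) else Fin.natAdd m (g i), fun b => ?_⟩
  induction b using Fin.addCases with
  | left b =>
    refine le_trans (le_of_eq ?_) (hf b)
    refine sum_congr ?_ fun _ _ => rfl
    ext i
    simp only [mem_filter, mem_union]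
    constructor
    · rintro ⟨hi, hb⟩
      by_cases his : i ∈ s
      · rw [if_pos his] at hb
        exact ⟨his, Fin.castAdd_injective _ _ hb⟩
      · rw [if_neg his] at hb
        have := congrArg Fin.val hb
        simp only [Fin.val_natAdd, Fin.val_castAdd] at this
        have := b.isLt
        omega
    · rintro ⟨his, hb⟩
      exact ⟨Or.inl his, by rw [if_pos his, hb]⟩
  | right b =>
    refine le_trans (le_of_eq ?_) (hg b)
    refine sum_congr ?_ fun _ _ => rfl
    ext i
    simp only [mem_filter, mem_union]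
    constructor
    · rintro ⟨hi, hb⟩
      by_cases his : i ∈ s
      · rw [if_pos his] at hb
        have := congrArg Fin.val hb
        simp only [Fin.val_natAdd, Fin.val_castAdd] at this
        have := (f i).isLt
        omega
      · rw [if_neg his] at hb
        exact ⟨hi.resolve_left his, Fin.natAdd_injective _ _ hb⟩
    · rintro ⟨hit, hb⟩
      have his : i ∉ s := fun h => (Finset.disjoint_left.1 hd h) hit
      exact ⟨Or.inr hit, by rw [if_neg his, hb]⟩

/-- greedy insertion of small items -/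
theorem greedy [DecidableEq ι] (a : ι → ℝ) (ha0 : ∀ i, 0 ≤ a i) (m : ℕ) (hm : 1 ≤ m)
    (s : Finset ι) (hs : Packs a s (m + 1)) (htot : ∑ i, a i ≤ m) (t : Finset ι) :
    (∀ i ∈ t, a i ≤ 1 / m) → Disjoint s t → Packs a (s ∪ t) (m + 1) := by
  classical
  have hm0 : (0 : ℝ) < m := by exact_mod_cast hm
  induction t using Finset.induction_on with
  | empty => intro _ _; simpa using hs
  | insert i t hit ih =>
    intro hsmall hdisj
    rw [disjoint_insert_right] at hdisj
    obtain ⟨f, hf⟩ := ih (fun j hj => hsmall j (mem_insert_of_mem hj)) hdisj.2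
    have hi : i ∉ s ∪ t := by
      rw [mem_union]
      rintro (h | h)
      · exact hdisj.1 h
      · exact hit h
    have hai := hsmall i (mem_insert_self _ _)
    by_cases hex : ∃ b : Fin (m + 1), ∑ j ∈ s ∪ t with f j = b, a j + a i ≤ 1
    · obtain ⟨b0, hb0⟩ := hex
      refine ⟨fun j => if j = i then b0 else f j, fun b => ?_⟩
      have e1 : s ∪ insert i t = insert i (s ∪ t) := by
        ext j; simp only [mem_union, mem_insert]; tauto
      rw [e1, filter_insert]
      have e2 : (s ∪ t).filter (fun j => (if j = i then b0 else f j) = b)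
          = (s ∪ t).filter (fun j => f j = b) := by
        refine filter_congr fun j hj => ?_
        have : j ≠ i := by rintro rfl; exact hi hj
        rw [if_neg this]
      rw [e2]
      simp only [↓reduceIte]
      by_cases hbb : b0 = b
      · subst hbb
        rw [if_pos rfl, sum_insert (by simp [hi])]
        linarith
      · rw [if_neg hbb]
        exact hf b
    · exfalso
      push Not at hex
      have h1 : ∑ b : Fin (m + 1), (∑ j ∈ s ∪ t with f j = b, a j) = ∑ j ∈ s ∪ t, a j :=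
        sum_fiberwise _ _ _
      have h2 : ∑ _b : Fin (m + 1), (1 - a i) < ∑ b : Fin (m + 1), (∑ j ∈ s ∪ t with f j = b, a j) := by
        refine sum_lt_sum_of_nonempty ⟨0, mem_univ _⟩ fun b _ => ?_
        have := hex b
        linarith
      rw [h1, sum_const, card_univ, Fintype.card_fin, nsmul_eq_mul] at h2
      have h3 : ∑ j ∈ s ∪ t, a j + a i ≤ ∑ j, a j := by
        have h4 : ∑ j ∈ insert i (s ∪ t), a j ≤ ∑ j, a j :=
          sum_le_sum_of_subset_of_nonneg (subset_univ _) fun j _ _ => ha0 j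
        rw [sum_insert hi] at h4
        linarith
      have h5 : (m : ℝ) * a i ≤ 1 := by
        rw [le_div_iff₀ hm0] at hai
        linarith
      push_cast at h2
      nlinarith

end Vale.Agent.P302X
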