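import Vale.Agent.P302X.Pack

/-! # Small values of the configuration LP -/

namespace Vale.Agent.P302X

open Finset

variable {ι : Type*} [Fintype ι]

theorem packs_blocks (a : ι → ℝ) (s : Finset ι) (q k : ℕ) (hq : 1 ≤ q) (hk : 1 ≤ k)
    (hcard : s.card ≤ q * k) (hsz : ∀ i ∈ s, a i ≤ 1 / q) : Packs a s k := by
  classical
  have hq0 : (0 : ℝ) < q := by exact_mod_cast hq
  set idx : ι → ℕ := fun i => if h : i ∈ s then (s.equivFin ⟨i, h⟩ : ℕ) else 0 with hidx
  have hlt : ∀ i, idx i / q < k := by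
    intro i
    rw [Nat.div_lt_iff_lt_mul (by omega)]
    by_cases h : i ∈ s
    · rw [hidx]
      simp only
      rw [dif_pos h]
      have := (s.equivFin ⟨i, h⟩).isLt
      calc (s.equivFin ⟨i, h⟩ : ℕ) < s.card := this
        _ ≤ q * k := hcard
        _ = k * q := mul_comm _ _
    · rw [hidx]
      simp only
      rw [dif_neg h]
      positivity
  have hinj : ∀ i ∈ s, ∀ j ∈ s, idx i = idx j → i = j := by
    intro i hi j hj hij
    rw [hidx] at hij
    simp only at hij
    rw [dif_pos hi, dif_pos hj] at hij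
    have := s.equivFin.injective (Fin.ext hij)
    exact congrArg Subtype.val this
  refine ⟨fun i => ⟨idx i / q, hlt i⟩, fun b => ?_⟩
  have hc : (s.filter (fun i => (⟨idx i / q, hlt i⟩ : Fin k) = b)).card ≤ q := by
    refine (card_le_card_of_injOn (t := range q) (fun i => idx i % q) (fun i _ => ?_) ?_).trans
      (card_range q).le
    · exact mem_coe.2 (mem_range.2 (Nat.mod_lt _ (by omega)))
    · intro i hi j hj hij
      rw [mem_coe, mem_filter] at hi hj
      have e1 : idx i / q = b := congrArg Fin.val hi.2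
      have e2 : idx j / q = b := congrArg Fin.val hj.2
      refine hinj i hi.1 j hj.1 ?_
      have h1 := Nat.div_add_mod (idx i) q
      have h2 := Nat.div_add_mod (idx j) q
      simp only at hij
      rw [← h1, ← h2, e1, e2, hij]
  calc ∑ i ∈ s with (⟨idx i / q, hlt i⟩ : Fin k) = b, a i
      ≤ ∑ _i ∈ s with (⟨idx _i / q, hlt _i⟩ : Fin k) = b, (1 / q : ℝ) :=
        sum_le_sum fun i hi => hsz i (mem_filter.1 hi).1
    _ = (s.filter (fun i => (⟨idx i / q, hlt i⟩ : Fin k) = b)).card * (1 / q : ℝ) := by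
        rw [sum_const, nsmul_eq_mul]
    _ ≤ q * (1 / q : ℝ) := by
        refine mul_le_mul_of_nonneg_right ?_ (by positivity)
        exact_mod_cast hc
    _ = 1 := by field_simp

/-- number of items above `1 / (q + 1)` in a configuration -/
theorem config_count (a : ι → ℝ) (ha0 : ∀ i, 0 < a i) (c : ℝ →₀ ℕ) (hc : IsConfig a c) (q : ℕ) :
    ∑ σ ∈ c.support, (if 1 / ((q : ℝ) + 1) < σ then 1 else 0) * (c σ : ℝ) ≤ q := by
  classical
  set N : ℕ := ∑ σ ∈ c.support, (if 1 / ((q : ℝ) + 1) < σ then c σ else 0) with hN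
  have e1 : ∑ σ ∈ c.support, (if 1 / ((q : ℝ) + 1) < σ then 1 else 0) * (c σ : ℝ) = (N : ℝ) := by
    rw [hN]
    push_cast
    refine sum_congr rfl fun σ _ => ?_
    split_ifs <;> simp
  rw [e1]
  have hq1 : (0 : ℝ) < (q : ℝ) + 1 := by positivity
  have h0 : ∀ σ ∈ c.support, 0 < σ := by
    intro σ hσ
    obtain ⟨i, rfl⟩ := hc.1 σ hσ
    exact ha0 i
  by_contra hlt
  push Not at hlt
  have hlt' : q + 1 ≤ N := by exact_mod_cast hlt
  -- some item above the threshold
  have hex : ∃ σ ∈ c.support, 1 / ((q : ℝ) + 1) < σ := by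
    by_contra hno
    push Not at hno
    have : N = 0 := by
      rw [hN]
      refine sum_eq_zero fun σ hσ => ?_
      rw [if_neg (not_lt.2 (hno σ hσ))]
    omega
  obtain ⟨τ, hτ, hτ1⟩ := hex
  have h2 : ∑ σ ∈ c.support, (1 / ((q : ℝ) + 1)) * ((if 1 / ((q : ℝ) + 1) < σ then c σ else 0 : ℕ) : ℝ)
      < ∑ σ ∈ c.support, σ * (c σ : ℝ) := by
    refine sum_lt_sum (fun σ hσ => ?_) ⟨τ, hτ, ?_⟩
    · split_ifs with h
      · exact mul_le_mul_of_nonneg_right h.le (Nat.cast_nonneg _)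
      · have := h0 σ hσ
        simp only [Nat.cast_zero, mul_zero]
        positivity
    · rw [if_pos hτ1]
      refine mul_lt_mul_of_pos_right hτ1 ?_
      have := Finsupp.mem_support_iff.1 hτ
      positivity
  rw [← mul_sum] at h2
  have h3 : (∑ σ ∈ c.support, ((if 1 / ((q : ℝ) + 1) < σ then c σ else 0 : ℕ) : ℝ)) = (N : ℝ) := by
    rw [hN]
    push_cast
    rfl
  rw [h3] at h2
  have h4 : (1 / ((q : ℝ) + 1)) * (N : ℝ) < 1 := lt_of_lt_of_le h2 hc.2
  have h5 : ((q : ℝ) + 1) ≤ N := by exact_mod_cast hlt'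
  rw [one_div, inv_mul_lt_iff₀ hq1] at h4
  linarith

theorem total_le (a : ι → ℝ) (ha0 : ∀ i, 0 < a i) (ha1 : ∀ i, a i ≤ 1) : ∑ i, a i ≤ LP a := by
  have h := weight_LP a ha1 (fun x => |x|) (fun x => abs_nonneg x) 1 one_pos (fun c hc => by
    refine le_trans (le_of_eq ?_) hc.2
    refine sum_congr rfl fun σ hσ => ?_
    obtain ⟨i, rfl⟩ := hc.1 σ hσ
    rw [abs_of_pos (ha0 i)])
  rw [one_mul] at h
  refine le_trans (le_of_eq ?_) h
  exact sum_congr rfl fun i _ => (abs_of_pos (ha0 i)).symm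

theorem count_le (a : ι → ℝ) (ha0 : ∀ i, 0 < a i) (ha1 : ∀ i, a i ≤ 1) (q : ℕ) (hq : 1 ≤ q) :
    ((univ.filter (fun i => 1 / ((q : ℝ) + 1) < a i)).card : ℝ) ≤ q * LP a := by
  classical
  have hq0 : (0 : ℝ) < q := by exact_mod_cast hq
  have h := weight_LP a ha1 (fun x => if 1 / ((q : ℝ) + 1) < x then 1 else 0)
    (fun x => by split_ifs <;> norm_num) q hq0 (fun c hc => config_count a ha0 c hc q)
  refine le_trans (le_of_eq ?_) h
  rw [card_filter]
  push_cast
  rfl

/-- Reduction: it is enough to pack the items larger than `1 / m`. -/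
theorem reduction [DecidableEq ι] (a : ι → ℝ) (ha0 : ∀ i, 0 < a i) (ha1 : ∀ i, a i ≤ 1) (m : ℕ)
    (hm : 1 ≤ m) (hLP : LP a ≤ m)
    (hl : Packs a (univ.filter (fun i => 1 / (m : ℝ) < a i)) (m + 1)) :
    Packs a univ (m + 1) := by
  classical
  have h := greedy a (fun i => (ha0 i).le) m hm _ hl ((total_le a ha0 ha1).trans hLP)
    (univ.filter (fun i => ¬ 1 / (m : ℝ) < a i)) (fun i hi => not_lt.1 (mem_filter.1 hi).2)
    (disjoint_filter_filter_not _ _ _)
  rwa [filter_union_filter_not_eq] at h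

end Vale.Agent.P302X
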